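import Vale.Agent.P057PK.Smo

/-!
The refined systems are smooth for most base points.
-/

set_option linter.unusedSectionVars false

open Matrix Finset
open Vale.Agent.P267.H775 Vale.Agent.P057G Vale.Agent.P057MA Vale.Agent.P057IV
open Vale.Agent.P057T1 (gsc ind ind_nonneg ind_le abs_ind ind_pos ind_neg frz_defect)

namespace Vale.Agent.P057PK

noncomputable section

variable {V ι C : Type} [Fintype V] [DecidableEq V] [Fintype ι] [DecidableEq ι] [Fintype C]
  [DecidableEq C] (S : MS V ι) (s : Stp V ι) (c0 : C)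

/-- the transversal through the extra copy of the class -/
def ex (χ : V → C) : V → Option C := Function.update (some ∘ χ) s.b none

/-- the scalings of the joint system of base point and refinement -/
def sc (W : ℝ) (a : BI (xt S s).fc (some c0)) : ℝ :=
  if (s.b, none) ∈ (blow (xt S s) (some c0)).fc a then
    (if (blow (xt S s) (some c0)).fc a = {(s.b, none)} then 1 else W) / s.lam else W

/-- the joint system of base point and refinement -/
def om (W : ℝ) : MS (V × Option C) (BI (xt S s).fc (some c0)) :=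
  (blow (xt S s) (some c0)).gram (gsc (blow (xt S s) (some c0)).G (sc S s c0 W))

/-- the coordinates of the base point -/
def e0 (i : ι) : BI (xt S s).fc (some c0) := cp _ _ (ex s fun _ => c0) (Sum.inl i)

/-- the coordinates of the refinement -/
def e1 (o : ι → ℤ) (a : BI (rf S s o).fc c0) : BI (xt S s).fc (some c0) :=
  a.1.1.elim (fun x => cp _ _ (some ∘ a.1.2) x) fun l => cp _ _ (ex s a.1.2) (Sum.inl l.1)

/-- the indices in use -/
def qm : Finset (BI (xt S s).fc (some c0)) :=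
  univ.filter fun a => ∀ v, a.1.2 v = none → v = s.b ∧ a.1.1.isLeft

/-- the live vertices -/
def lv : Finset (V × Option C) := univ.erase (s.b, none)

variable {S s c0} {o : ι → ℤ} {W : ℝ}

theorem ex_b (χ : V → C) : ex s χ s.b = none := Function.update_self ..

theorem ex_ne (χ : V → C) {v : V} (h : v ≠ s.b) : ex s χ v = some (χ v) :=
  Function.update_of_ne h ..

theorem mem_qm {a : BI (xt S s).fc (some c0)} :
    a ∈ qm S s c0 ↔ ∀ v, a.1.2 v = none → v = s.b ∧ a.1.1.isLeft := by simp [qm]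

theorem mem_live {a : BI (xt S s).fc (some c0)} : a ∈ (om S s c0 W).sts (lv s) ↔
    ∃ v ∈ (xt S s).fc a.1.1, (v, a.1.2 v) ≠ (s.b, none) := by
  rw [MS.mem_sts]
  exact ⟨fun ⟨w, h1, h2⟩ => ⟨w.1, (mem_fc_blow.1 h2).1, by
      rw [(mem_fc_blow.1 h2).2]; exact (mem_erase.1 h1).1⟩,
    fun ⟨v, h1, h2⟩ => ⟨_, mem_erase.2 ⟨h2, mem_univ _⟩, mem_fc_blow.2 ⟨h1, rfl⟩⟩⟩

theorem cp_none {χ : V → Option C} {k : ι ⊕ s.X} {v : V} :
    (cp (xt S s).fc (some c0) χ k).1.2 v = none ↔ v ∈ (xt S s).fc k ∧ χ v = none := by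
  simp only [cp]; split_ifs with h <;> simp [h]

theorem cls_qm : Cls (blow (xt S s) (some c0)) (qm S s c0) := by
  have key : ∀ a b : BI (xt S s).fc (some c0), (blow (xt S s) (some c0)).fc b ⊆
      (blow (xt S s) (some c0)).fc a → (xt S s).lv b.1.1 ≤ (xt S s).lv a.1.1 →
      a ∈ qm S s c0 → b ∈ qm S s c0 := by
    intro a b h1 h2 ha
    refine mem_qm.2 fun v hv => ?_
    have h3 : v ∈ (xt S s).fc b.1.1 := by_contra fun h => by simp [b.2 v h] at hv
    obtain ⟨h4, h5⟩ := mem_qm.1 ha v (((fc_blow_sub.1 h1).2 v h3).symm.trans hv)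
    refine ⟨h4, ?_⟩
    revert h2 h5
    rcases a.1.1 with i | x <;> rcases b.1.1 with j | y <;> simp
    exact lv_lt (S := S) i
  exact ⟨fun a b h1 h2 => key a b h1.ge h2.ge, fun a ha b h => key a b h.1 h.2.le ha⟩

theorem e1_cp (χ : V → C) (x : ι ⊕ s.X) :
    e1 S s c0 o (cp _ _ χ (Sum.inl x)) = cp _ _ (some ∘ χ) x :=
  cp_congr fun _ hv => congrArg some (cp_snd (fc := (rf S s o).fc) χ hv)

theorem e1_cp' (χ : V → C) (l : Lk S s.b) :
    e1 S s c0 o (cp _ _ χ (Sum.inr l)) = cp _ _ (ex s χ) (Sum.inl l.1) :=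
  cp_congr fun v hv => by
    by_cases e : v = s.b
    · rw [e, ex_b, ex_b]
    · rw [ex_ne _ e, ex_ne _ e]
      exact congrArg some (cp_snd (fc := (rf S s o).fc) χ (mem_erase.2 ⟨e, hv⟩))

theorem bi_cases (a : BI (rf S s o).fc c0) : (∃ χ x, a = cp _ _ χ (Sum.inl x)) ∨
    ∃ χ l, a = cp _ _ χ (Sum.inr l) := by
  rw [← cp_self a]
  rcases a.1.1 with x | l
  exacts [Or.inl ⟨_, _, rfl⟩, Or.inr ⟨_, _, rfl⟩]

theorem cp_eq {ι' D : Type} {fc : ι' → Finset V} {d : D} {χ χ' : V → D} {k k' : ι'}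
    (h : fc k = fc k') : (cp fc d χ k).1.2 = (cp fc d χ' k').1.2 ↔ ∀ v ∈ fc k, χ v = χ' v :=
  ⟨fun e v hv => by simpa only [cp_snd _ hv, cp_snd _ (h ▸ hv)] using congrFun e v,
    fun e => funext fun v => by
      simp only [cp, ← h]
      split_ifs with hv
      exacts [e v hv, rfl]⟩

theorem e1_inj : Function.Injective (e1 S s c0 o) := by
  intro a b h
  rcases bi_cases a with ⟨χ, x, rfl⟩ | ⟨χ, l, rfl⟩ <;>
    rcases bi_cases b with ⟨χ', x', rfl⟩ | ⟨χ', l', rfl⟩ <;> simp only [e1_cp, e1_cp'] at h <;>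
    have h1 := congrArg (·.1.1) h <;> have h2 := congrArg (·.1.2) h
  · obtain rfl : x = x' := h1
    exact cp_congr fun v hv => Option.some_injective _ ((cp_eq rfl).1 h2 v hv)
  · obtain rfl : x = Sum.inl l'.1 := h1
    exact absurd ((cp_eq rfl).1 h2 s.b l'.2.1) (by simp [ex_b])
  · obtain rfl : Sum.inl l.1 = x' := h1
    exact absurd ((cp_eq rfl).1 h2 s.b l.2.1) (by simp [ex_b])
  · obtain rfl : l = l' := Subtype.ext (Sum.inl_injective h1)
    refine cp_congr fun v hv => Option.some_injective _ ?_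
    simpa only [ex_ne _ (mem_erase.1 hv).1] using (cp_eq rfl).1 h2 v (mem_erase.1 hv).2

theorem live_some (hx : (xt S s).Cen) (χ : V → C) (x : ι ⊕ s.X) :
    cp _ _ (some ∘ χ) x ∈ (om S s c0 W).sts (lv s) := by
  obtain ⟨v, hv⟩ := hx.ne x
  exact mem_live.2 ⟨v, hv, by simp [cp_snd _ hv]⟩

theorem live_ex {χ : V → C} {i : ι} : cp _ _ (ex s χ) (Sum.inl i) ∈ (om S s c0 W).sts (lv s) ↔
    ¬S.fc i ⊆ {s.b} := by
  rw [mem_live, not_subset]
  refine exists_congr fun v => and_congr_right fun hv => ?_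
  rw [cp_snd (k := Sum.inl i) _ hv, mem_singleton]
  by_cases e : v = s.b <;> simp [e, ex_b, ex_ne]

theorem qm_cases {a : BI (xt S s).fc (some c0)} : a ∈ qm S s c0 ↔
    (∃ χ x, a = cp _ _ (some ∘ χ) x) ∨ ∃ χ i, a = cp _ _ (ex s χ) (Sum.inl i) ∧ s.b ∈ S.fc i := by
  constructor
  · intro ha
    have h1 : ∀ v, v ≠ s.b → some ((a.1.2 v).getD c0) = a.1.2 v := fun v hv => by
      rcases h : a.1.2 v with _ | c
      exacts [absurd (mem_qm.1 ha v h).1 hv, rfl]
    rcases h : a.1.2 s.b with _ | c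
    · obtain ⟨i, hi⟩ := Sum.isLeft_iff.1 (mem_qm.1 ha _ h).2
      refine Or.inr ⟨fun v => (a.1.2 v).getD c0, i, ?_, by_contra fun h2 => ?_⟩
      · rw [← hi]
        refine (cp_self a).symm.trans (cp_congr fun v _ => ?_)
        by_cases e : v = s.b
        · rw [e, ex_b, h]
        · rw [ex_ne _ e, h1 v e]
      · simp [a.2 s.b (by rw [hi]; exact h2)] at h
    · refine Or.inl ⟨fun v => (a.1.2 v).getD c0, a.1.1, (cp_self a).symm.trans
        (cp_congr fun v _ => ?_)⟩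
      by_cases e : v = s.b
      · simp [e, h]
      · exact (h1 v e).symm
  · rintro (⟨χ, x, rfl⟩ | ⟨χ, i, rfl, -⟩) <;> refine mem_qm.2 fun v hv => ?_
    · simp [cp_none] at hv
    · exact ⟨by_contra fun e => by simp [cp_none, ex_ne _ e] at hv, rfl⟩

theorem qm_live (hx : (xt S s).Cen) : qm S s c0 ∩ (om S s c0 W).sts (lv s) =
    (vld (rf S s o).fc c0 univ).image (e1 S s c0 o) := by
  ext a
  simp only [mem_inter, mem_image, mem_vld, mem_univ, true_and, qm_cases]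
  constructor
  · rintro ⟨⟨χ, x, rfl⟩ | ⟨χ, i, rfl, h⟩, h2⟩
    · exact ⟨_, e1_cp χ x⟩
    · exact ⟨_, e1_cp' χ ⟨i, h, fun e => live_ex.1 h2 e.le⟩⟩
  · rintro ⟨b, rfl⟩
    rcases bi_cases b with ⟨χ, x, rfl⟩ | ⟨χ, l, rfl⟩
    · exact e1_cp χ x ▸ ⟨Or.inl ⟨_, _, rfl⟩, live_some hx χ x⟩
    · exact e1_cp' χ l ▸ ⟨Or.inr ⟨_, _, rfl, l.2.1⟩, live_ex.2 fun e =>
        l.2.2 (Subset.antisymm e (singleton_subset_iff.2 l.2.1))⟩

theorem ex_pure {i : ι} (h : S.fc i ⊆ {s.b}) (χ : V → C) :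
    cp _ _ (ex s χ) (Sum.inl i) = e0 S s c0 i :=
  cp_congr fun v hv => by rw [mem_singleton.1 (h hv), ex_b, ex_b]

theorem pure_of (hc : S.Cen) {i : ι} (h : S.fc i ⊆ {s.b}) : S.fc i = {s.b} :=
  (subset_singleton_iff.1 h).resolve_left (hc.ne i).ne_empty

theorem qm_dead (hc : S.Cen) (hx : (xt S s).Cen) : qm S s c0 \ (om S s c0 W).sts (lv s) =
    (fce S {s.b}).image (e0 S s c0) := by
  ext a
  simp only [mem_sdiff, mem_image, mem_fce, qm_cases]
  constructor
  · rintro ⟨⟨χ, x, rfl⟩ | ⟨χ, i, rfl, h⟩, h2⟩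
    · exact absurd (live_some hx χ x) h2
    · exact ⟨i, not_not.1 (mt live_ex.2 h2), (ex_pure (not_not.1 (mt live_ex.2 h2)) χ).symm⟩
  · rintro ⟨i, hi, rfl⟩
    exact ⟨Or.inr ⟨_, i, rfl, pure_of hc hi ▸ mem_singleton_self _⟩, fun h => live_ex.1 h hi⟩

theorem sc_some (χ : V → C) (x : ι ⊕ s.X) : sc S s c0 W (cp _ _ (some ∘ χ) x) = W :=
  if_neg fun h => by simpa [cp_none] using (mem_fc_blow.1 h).2

theorem sc_ex (χ : V → C) {i : ι} (h : s.b ∈ S.fc i) :
    sc S s c0 W (cp _ _ (ex s χ) (Sum.inl i)) = (if S.fc i = {s.b} then 1 else W) / s.lam := by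
  rw [sc, if_pos (mem_fc_blow.2 ⟨h, cp_none.2 ⟨h, ex_b χ⟩⟩), fc_blow_cp]
  congr 2
  refine propext ⟨fun e => ?_, fun e => ?_⟩
  · have := congrArg (image Prod.fst) e
    simp only [image_image, Function.comp_def, image_id', image_singleton] at this
    exact this
  · change image _ (S.fc i) = _
    rw [e, image_singleton, ex_b]

theorem xt_G {i j : ι} (hi : s.b ∈ S.fc i) (hj : s.b ∈ S.fc j) :
    (xt S s).G (Sum.inl i) (Sum.inl j) = s.lam * S.G i j * s.lam := by
  change s.lam ^ _ * S.G i j * s.lam ^ _ = _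
  rw [inter_singleton_of_mem hi, inter_singleton_of_mem hj, card_singleton, pow_one]

theorem G_cp2 {ι' D : Type} [Fintype ι'] [DecidableEq ι'] [DecidableEq D] {T : MS V ι'} (h : T.Ok)
    {d : D} (χ χ' : V → D) (k k' : ι') : (blow T d).G (cp _ _ χ k) (cp _ _ χ' k') =
      if ∀ v ∈ T.fc k, χ v = χ' v then T.G k k' else 0 := by
  change (if _ then T.G k k' else 0) = _
  by_cases h0 : T.G k k' = 0
  · simp [h0]
  · simp only [cp_eq (h.orth _ _ h0).1]

theorem om_G (a b : BI (xt S s).fc (some c0)) : (om S s c0 W).G a b =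
    sc S s c0 W a * (blow (xt S s) (some c0)).G a b * sc S s c0 W b := rfl

theorem mass_live (h : S.Ok) (hx : (xt S s).Ok) (hxc : (xt S s).Cen) (hl : s.lam ≠ 0)
    (y : BI (xt S s).fc (some c0) → ℤ) (hy : y ∘ e0 S s c0 = o) :
    ((om S s c0 W).frz (lv s) (toR y)).mass (qm S s c0 ∩ (om S s c0 W).sts (lv s)) =
      (nar (blow (rf S s o) c0) W).mass (vld (rf S s o).fc c0 univ) := by
  rw [qm_live (o := o) hxc]
  refine mass_image (S := nar (blow (rf S s o) c0) W) e1_inj (fun a _ b _ => ?_) fun z a _ => ?_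
  · refine (om_G _ _).trans ?_
    change _ = W ^ 2 * (blow (rf S s o) c0).G a b
    rcases bi_cases a with ⟨χ, x, rfl⟩ | ⟨χ, l, rfl⟩ <;>
      rcases bi_cases b with ⟨χ', x', rfl⟩ | ⟨χ', l', rfl⟩ <;>
      simp only [e1_cp, e1_cp', G_cp2 hx, G_cp2 (ok_rf h hx o), sc_some]
    · simp only [Function.comp, Option.some.injEq]
      rw [mul_right_comm, sq]; rfl
    · have : (rf S s o).G (Sum.inl x) (Sum.inr l') = 0 := rfl
      by_cases h0 : (xt S s).G x (Sum.inl l'.1) = 0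
      · simp [h0, this]
      rw [if_neg fun e => by simpa [ex_b] using e s.b ((hx.orth _ _ h0).1 ▸ l'.2.1)]
      simp [this]
    · have : (rf S s o).G (Sum.inr l) (Sum.inl x') = 0 := rfl
      rw [if_neg fun e => by simpa [ex_b] using e s.b l.2.1]
      simp [this]
    · have e : (∀ v ∈ (xt S s).fc (Sum.inl l.1), ex s χ v = ex s χ' v) ↔
          ∀ v ∈ (rf S s o).fc (Sum.inr l), χ v = χ' v :=
        ⟨fun e v hv => by
          simpa only [ex_ne _ (mem_erase.1 hv).1, Option.some.injEq] using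
            e v (mem_erase.1 hv).2, fun e v hv => by
          by_cases e2 : v = s.b
          · rw [e2, ex_b, ex_b]
          · rw [ex_ne _ e2, ex_ne _ e2, e v (mem_erase.2 ⟨e2, hv⟩)]⟩
      have : (rf S s o).G (Sum.inr l) (Sum.inr l') = S.G l l' := rfl
      simp only [sc_ex _ l.2.1, sc_ex _ l'.2.1, if_neg l.2.2, if_neg l'.2.2, e, this,
        xt_G l.2.1 l'.2.1]
      split_ifs
      · field_simp
      · simp
  · change _ = (blow (rf S s o) c0).p (z ∘ e1 S s c0 o) a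
    rcases bi_cases a with ⟨χ, x, rfl⟩ | ⟨χ, l, rfl⟩
    · rw [e1_cp, MS.frz_p_pos _ _ (live_some hxc χ x), p_cp (ok_rf h hx o)]
      refine (p_cp hx _ _ _).trans (congrArg ((xt S s).p · x) (funext fun k => ?_))
      exact (mix_pos _ _ (live_some hxc χ k)).trans (congrArg z (e1_cp χ k).symm)
    · rw [e1_cp', MS.frz_p_pos _ _ (live_ex.2 fun e =>
        l.2.2 (Subset.antisymm e (singleton_subset_iff.2 l.2.1))), p_cp (ok_rf h hx o)]
      refine (p_cp hx (ex s χ) _ (Sum.inl l.1)).trans (congrArg (S.p · l.1) (funext fun k => ?_))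
      change mix _ z (toR y) (cp _ _ (ex s χ) (Sum.inl k)) = _
      rcases tri S s.b k with e | ⟨l', rfl⟩ | e
      · rw [bv_pure e, mix_neg _ _ fun h2 => live_ex.1 h2 e.le, ex_pure e.le, ← hy]; rfl
      · rw [bv_link, mix_pos _ _ (live_ex.2 fun e =>
          l'.2.2 (Subset.antisymm e (singleton_subset_iff.2 l'.2.1))), ← e1_cp' (o := o)]; rfl
      · have e2 : cp (xt S s).fc (some c0) (ex s χ) (Sum.inl k) = cp _ _ (some ∘ χ) (Sum.inl k) :=
          cp_congr fun v hv => ex_ne _ fun e2 => e (e2 ▸ hv)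
        rw [bv_out e, e2, mix_pos _ _ (live_some hxc χ _), ← e1_cp (o := o)]; rfl

theorem dead_G (hc : S.Cen) (hx : (xt S s).Ok) (hl : s.lam ≠ 0) :
    ∀ i ∈ fce S {s.b}, ∀ j ∈ fce S {s.b},
      (om S s c0 W).G (e0 S s c0 i) (e0 S s c0 j) = S.G i j := by
  intro i hi j hj
  have h1 := pure_of hc (mem_fce.1 hi)
  have h2 := pure_of hc (mem_fce.1 hj)
  have h3 : s.b ∈ S.fc i := h1 ▸ mem_singleton_self _
  have h4 : s.b ∈ S.fc j := h2 ▸ mem_singleton_self _
  rw [om_G, e0, e0, G_cp hx, sc_ex _ h3, sc_ex _ h4, if_pos h1, if_pos h2, xt_G h3 h4]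
  field_simp

/-- the mean defect of the refined systems -/
theorem rf_defect (h : S.Ok) (hc : S.Cen) (hx : (xt S s).Ok) (hxc : (xt S s).Cen)
    (hl : 1 ≤ s.lam) (hW : 1 ≤ W) {η : ℝ}
    (hm : (nar (blow (xt S s) (some c0)) W).mass (vld (xt S s).fc (some c0) univ) ≤ 1 + η) :
    S.mass (fce S {s.b}) ≤ 1 + η ∧ ∀ (F : (ι → ℤ) → ℝ) (K : ℝ), (∀ o, |F o| ≤ K) →
      (∀ o, F o ≤ (nar (blow (rf S s o) c0) W).mass (vld (rf S s o).fc c0 univ) - 1) →
      ∑' o, S.wt (fce S {s.b}) o * F o ≤ η * vl S.G (fce S {s.b}) := by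
  have hb := ok_blow hx (some c0)
  have hb' := cen_blow hxc (some c0)
  have l0 : s.lam ≠ 0 := by linarith
  have s0 : ∀ a, 0 < sc S s c0 W a := fun a => by
    unfold sc; split_ifs <;> positivity
  have ho : (om S s c0 W).Ok := ok_gsc hb s0
  have hq : Cls (om S s c0 W) (qm S s c0) := ⟨cls_qm.blk, cls_qm.dep⟩
  have h1 : (om S s c0 W).mass (qm S s c0) ≤ 1 + η := by
    refine (mass_gsc hb hb' (fun a b e => by simp only [sc, e]) s0 (W := W) (by linarith)
      (fun a => ?_) _).trans (le_trans (Cls.mass_mono (ok_nar hb (by linarith)) (cen_nar hb' W)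
        (((cls_univ _).vld _).nar W) (cls_qm.nar W) fun a _ => mem_vld.2 (mem_univ _)) hm)
    unfold sc
    split_ifs
    exacts [(div_le_self zero_le_one hl).trans hW, div_le_self (by linarith) hl, le_rfl]
  have inj : Function.Injective (e0 S s c0) := (cp_inj _ _ _).comp Sum.inl_injective
  have hp : ∀ z, ∀ i ∈ fce S {s.b}, (om S s c0 W).p z (e0 S s c0 i) = S.p (z ∘ e0 S s c0) i :=
    fun z i _ => p_cp hx _ z (Sum.inl i)
  constructor
  · rw [← mass_image inj (dead_G (W := W) hc hx l0) hp, ← qm_dead (W := W) hc hxc]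
    refine le_trans (Cls.mass_mono ho (hb'.gram _) hq ⟨fun a b e1 e2 ha => ?_, fun a ha b e => ?_⟩
      sdiff_subset) h1
    · exact mem_sdiff.2 ⟨hq.blk a b e1 e2 (mem_sdiff.1 ha).1,
        fun h2 => (mem_sdiff.1 ha).2 (MS.mem_sts.2 (e1 ▸ MS.mem_sts.1 h2))⟩
    · refine mem_sdiff.2 ⟨hq.dep a (mem_sdiff.1 ha).1 b e, fun h2 => (mem_sdiff.1 ha).2 ?_⟩
      obtain ⟨v, h3, h4⟩ := MS.mem_sts.1 h2
      exact MS.mem_sts.2 ⟨v, h3, e.1 h4⟩
  intro F K hK hF
  obtain ⟨b, b1, b2⟩ := frz_defect ho (hb'.gram _) (hq.sat ho) (lv s) h1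
  have e := tsum_wt_image inj (dead_G (W := W) hc hx l0) hp F
  simp only [smul_eq_mul] at e
  rw [← e, ← vl_image inj (dead_G (W := W) hc hx l0), ← qm_dead (W := W) hc hxc]
  refine le_trans (hasSum_le (fun y => ?_) (ho.summable_re _ fun y => hK _).hasSum b2) b1
  exact mul_le_mul_of_nonneg_left ((hF _).trans_eq (by rw [mass_live h hx hxc l0 y rfl]))
    (MS.wt_nonneg _ _)

theorem den_le {ι' : Type} [Fintype ι'] [DecidableEq ι'] {T : MS V ι'} (h : T.Ok) (F : Finset V)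
    (E : (ι' → ℝ) → Prop) : den T F E ≤ T.mass (fce T F) :=
  div_le_div_of_nonneg_right ((h.summable_re _ fun _ => abs_ind _).tsum_le_tsum
    (fun _ => mul_le_of_le_one_right (MS.wt_nonneg _ _) (ind_le _)) (h.summable _))
    (vl_pos h.pd _).le

theorem mass_le_blow {ι' : Type} [Fintype ι'] [DecidableEq ι'] {T : MS V ι'} (h : T.Ok)
    (hc : T.Cen) {q : Finset ι'} (hq : Cls T q) (hW : 1 ≤ W) (c0 : C) :
    T.mass q ≤ (nar (blow T c0) W).mass (vld T.fc c0 univ) := by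
  have h1 := mass_nar_mono h hc one_pos hW q
  rw [nar_one] at h1
  have h2 := Smo.mass h hc hq ((smo_of_mass h hc (cls_univ T) c0 (N := 1) (Fintype.card_pos_iff.2 ⟨c0⟩)
    (by linarith : W ≠ 0) (add_sub_cancel _ _).ge).mono h hc (cls_univ T) hq (subset_univ _) le_rfl
    (by linarith) le_rfl le_rfl) le_rfl (by linarith)
  linarith

theorem pick : PICK V := by
  refine ⟨3, fun ι _ _ S s B F Λ P R E Bad β Z h hc hs hΛ _ hZ hβ hM h1 h2 => ?_⟩
  have hx := hs.ok_xt hΛ h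
  have hxc := hs.cen_xt hΛ h hc
  have z3 : 2 * Z + 4 ≤ Z ^ 3 := by nlinarith [mul_le_mul hZ hZ (by norm_num) (by linarith)]
  have n0 : 0 < ⌈Z⌉₊ := Nat.ceil_pos.2 (by linarith)
  have W1 : 1 ≤ Real.exp Z := Real.one_le_exp (by linarith)
  set c0 : Fin ⌈Z⌉₊ := ⟨0, n0⟩
  obtain ⟨d1, d2⟩ := rf_defect (c0 := c0) h hc hx hxc (hs.one_le hΛ) W1
    (hM.mono hx hxc (cls_univ _) (cls_univ _) Subset.rfl le_rfl (by linarith)
      (Real.exp_le_exp.2 (by linarith)) le_rfl (Option (Fin ⌈Z⌉₊)) (some c0) (by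
        have := Nat.ceil_lt_add_one (show 0 ≤ Z by linarith)
        have h5 := Nat.le_ceil (Z ^ 3)
        rw [Fintype.card_option, Fintype.card_fin]
        exact_mod_cast (show (⌈Z⌉₊ : ℝ) + 1 ≤ ⌈Z ^ 3⌉₊ by linarith)))
  by_contra hno
  set m : (ι → ℤ) → ℝ := fun o =>
    (nar (blow (rf S s o) c0) (Real.exp Z)).mass (vld (rf S s o).fc c0 univ) with hm
  have m1 : ∀ o, den (rf S s o) F (E o) ≤ m o := fun o => (den_le (hs.ok_rf hΛ h o) F _).trans
    (mass_le_blow (hs.ok_rf hΛ h o) (hs.cen_rf hΛ h hc o) (cls_fce _ _) W1 c0)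
  have m2 : ∀ o, 1 ≤ m o := fun o => le_trans (by rw [MS.mass_empty])
    (mass_le_blow (hs.ok_rf hΛ h o) (hs.cen_rf hΛ h hc o) (q := ∅)
      ⟨fun _ _ _ _ h => absurd h (notMem_empty _), fun _ h => absurd h (notMem_empty _)⟩ W1 c0)
  have b0 : 0 < β := (Real.exp_pos _).trans_le hβ
  have v0 := vl_pos h.pd (fce S {s.b})
  have ez : Real.exp (-Z) * Real.exp Z = 1 := by rw [← Real.exp_add]; simp
  have m3 : ∀ o, den (rf S s o) F (E o) ≤ β / 4 + ind (Bad o) + 2 * Real.exp Z * (m o - 1) := by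
    intro o
    have := m1 o; have := m2 o; have := ind_nonneg (Bad o)
    by_cases a1 : Bad o
    · rw [ind_pos a1]; nlinarith
    by_cases a2 : m o ≤ 1 + Real.exp (-Z)
    · have := not_le.1 fun a3 => hno ⟨o, a1, smo_of_mass (hs.ok_rf hΛ h o) (hs.cen_rf hΛ h hc o)
        (cls_univ _) c0 (Fintype.card_fin _).ge (by linarith) a2, a3⟩
      nlinarith
    · nlinarith
  have hsum : Summable fun o => S.wt (fce S {s.b}) o * den (rf S s o) F (E o) := by
    by_contra h3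
    rw [tsum_eq_zero_of_not_summable h3] at h1
    nlinarith
  have key : ∀ t : Finset (ι → ℤ), ∑ o ∈ t, S.wt (fce S {s.b}) o * (m o - 1) ≤
      Real.exp (-Z ^ 3) * vl S.G (fce S {s.b}) := fun t => by
    have := d2 (fun o => if o ∈ t then m o - 1 else 0) (∑ o ∈ t, (m o - 1)) (fun o => by
      split_ifs with a
      · rw [abs_of_nonneg (by linarith [m2 o])]
        exact single_le_sum (f := fun o => m o - 1) (fun o _ => by linarith [m2 o]) a
      · exact abs_zero.trans_le (sum_nonneg fun o _ => by linarith [m2 o])) fun o => by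
      split_ifs
      exacts [le_rfl, by linarith [m2 o]]
    rwa [tsum_eq_sum (s := t) fun o ho => by rw [if_neg ho, mul_zero],
      sum_congr rfl fun o ho => by rw [if_pos ho]] at this
  have n1 : ∀ o, 0 ≤ S.wt (fce S {s.b}) o * (m o - 1) := fun o =>
    mul_nonneg (MS.wt_nonneg _ _) (by linarith [m2 o])
  have s1 := summable_of_sum_le n1 key
  have s2 := (h.summable_re (fce S {s.b}) fun o => abs_ind (Bad o)).hasSum
  have s3 := hasSum_le (fun o => by
      nlinarith [mul_le_mul_of_nonneg_left (m3 o) (MS.wt_nonneg (S := S) (fce S {s.b}) o)])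
    hsum.hasSum ((((h.hasSum_wt (fce S {s.b})).mul_left (β / 4)).add s2).add
      (s1.hasSum.mul_left (2 * Real.exp Z)))
  have s4 := s1.tsum_le_of_sum_le key
  have e1 : Real.exp (-Z ^ 3) ≤ 1 := Real.exp_le_one_iff.2 (by linarith)
  have e2 : 2 * Real.exp Z * Real.exp (-Z ^ 3) ≤ β / 4 := by
    have e3 : Real.exp Z * Real.exp (-Z ^ 3) ≤ Real.exp (-Z) * Real.exp (-4) := by
      rw [← Real.exp_add, ← Real.exp_add]; exact Real.exp_le_exp.2 (by linarith)
    have e4 : Real.exp (-4) ≤ 8⁻¹ := Real.exp_neg 4 ▸ inv_anti₀ (by norm_num)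
      (by linarith [Real.quadratic_le_exp_of_nonneg (show (0 : ℝ) ≤ 4 by norm_num)])
    nlinarith [Real.exp_pos (-Z), Real.exp_pos (-4)]
  have e5 := mul_le_mul_of_nonneg_left s4 (show 0 ≤ 2 * Real.exp Z by linarith)
  have e6 := mul_le_mul_of_nonneg_right e2 v0.le
  have e7 := mul_le_mul_of_nonneg_right (show S.mass (fce S {s.b}) ≤ 2 by linarith) v0.le
  nlinarith [mul_pos b0 v0]

end

end Vale.Agent.P057PK
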