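import Vale.Agent.P057IV.Plan
import Vale.Agent.P057IV.Step

/-!
Smoothness of scaled systems and of blow-ups.
-/

set_option linter.unusedSectionVars false

open Matrix Finset
open Vale.Agent.P267.H775 Vale.Agent.P057G Vale.Agent.P057MA Vale.Agent.P057IV
open Vale.Agent.P057T1 (gsc qq_gsc)

namespace Vale.Agent.P057PK

noncomputable section

variable {V ι : Type} [Fintype V] [DecidableEq V] [Fintype ι] [DecidableEq ι] {S : MS V ι}

theorem ok_gsc (h : S.Ok) {s : ι → ℝ} (h0 : ∀ i, 0 < s i) : (S.gram (gsc S.G s)).Ok := by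
  refine h.gram (PosDef.of_dotProduct_mulVec_pos ?_ fun x hx => ?_) fun i j hij =>
    h.orth i j fun e => hij (by simp [gsc, e])
  · ext i j
    have := h.pd.1.apply i j
    simp only [star_trivial] at this
    simp only [gsc, conjTranspose_apply, of_apply, star_trivial, this]; ring
  · change 0 < qq (gsc S.G s) x
    rw [qq_gsc]
    refine qq_pos h.pd fun e => hx (funext fun i => ?_)
    exact (mul_eq_zero.1 (congrFun e i)).resolve_left (h0 i).ne'

theorem mass_gsc (h : S.Ok) (hc : S.Cen) {s : ι → ℝ} (hs : ∀ i j, S.fc i = S.fc j → s i = s j)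
    (h0 : ∀ i, 0 < s i) {W : ℝ} (hW : 0 < W) (h2 : ∀ i, s i ≤ W) (q : Finset ι) :
    (S.gram (gsc S.G s)).mass q ≤ (nar S W).mass q :=
  (ok_gsc h h0).mass_narrow (hc.gram _) (H := W ^ 2 • S.G) (ok_nar h hW.ne') (fun x => by
    change qq (gsc S.G s) x ≤ _
    have := qq_scale_le h.pd.posSemidef (a := s) (b := fun _ => W)
      (fun i j e => hs i j (h.orth i j e).1) (fun _ _ _ => rfl)
      (fun i => pow_le_pow_left₀ (h0 i).le (h2 i) 2) x
    rw [qq_gsc, qq_smul_mat, ← qq_smul]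
    exact this) q

theorem smo_gsc (h : S.Ok) (hc : S.Cen) {s : ι → ℝ} (hs : ∀ i j, S.fc i = S.fc j → s i = s j)
    (h0 : ∀ i, 0 < s i) {q : Finset ι} {N : ℕ} {W W' η : ℝ} (hW : 0 < W) (hW' : 0 < W')
    (h2 : ∀ i, s i ≤ W') (hS : Smo S q N (W * W') η) : Smo (S.gram (gsc S.G s)) q N W η := by
  intro C _ _ c0 hC
  have h1 := hS C c0 hC
  rw [← nar_nar] at h1
  have h3 := mass_gsc (ok_nar (ok_blow h c0) hW.ne') (cen_nar (cen_blow hc c0) W)
    (s := fun a => s a.1.1) (fun a b e => hs _ _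
      (Subset.antisymm (fc_blow_sub.1 e.le).1 (fc_blow_sub.1 e.ge).1)) (fun _ => h0 _) hW'
    (fun _ => h2 _) (vld S.fc c0 q)
  refine le_trans (le_of_eq ?_) (h3.trans h1)
  congr 1
  simp only [nar, blow, MS.gram]
  congr 1
  ext a b
  change W ^ 2 * (if a.1.2 = b.1.2 then _ * S.G a.1.1 b.1.1 * _ else 0) =
    _ * (W ^ 2 * if a.1.2 = b.1.2 then S.G a.1.1 b.1.1 else 0) * _
  split_ifs <;> ring

variable {C D : Type} [Fintype C] [DecidableEq C] [Fintype D] [DecidableEq D]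

/-- relabelling of the copies -/
def rl (fc : ι → Finset V) {c0 : C} {d0 : D} (j : C → D) (h : j c0 = d0) (a : BI fc c0) :
    BI fc d0 := ⟨(a.1.1, j ∘ a.1.2), fun v hv => by rw [← h]; exact congrArg j (a.2 v hv)⟩

theorem rl_cp {fc : ι → Finset V} {c0 : C} {d0 : D} {j : C → D} (h : j c0 = d0) (χ : V → C)
    (k : ι) : rl fc j h (cp fc c0 χ k) = cp fc d0 (j ∘ χ) k :=
  Subtype.ext (Prod.ext rfl (funext fun v => by
    simp only [rl, cp, Function.comp, apply_ite j, h]))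

theorem mass_rl (h : S.Ok) (hc : S.Cen) {q : Finset ι} (hq : Cls S q) {c0 : C} {d0 : D}
    {j : C → D} (hj : Function.Injective j) (h0 : j c0 = d0) {W : ℝ} (hW : W ≠ 0) :
    (nar (blow S c0) W).mass (vld S.fc c0 q) ≤ (nar (blow S d0) W).mass (vld S.fc d0 q) := by
  have inj : Function.Injective (rl S.fc j h0) := fun a b e =>
    Subtype.ext (Prod.ext (congrArg (fun x : BI S.fc d0 => x.1.1) e)
      (hj.comp_left (congrArg (fun x : BI S.fc d0 => x.1.2) e)))
  have mem : ∀ {a : BI S.fc d0}, a ∈ (vld S.fc c0 q).image (rl S.fc j h0) ↔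
      a.1.1 ∈ q ∧ ∀ v ∈ S.fc a.1.1, ∃ c, j c = a.1.2 v := fun {a} => by
    rw [mem_image]
    refine ⟨?_, fun ⟨h1, h2⟩ => ?_⟩
    · rintro ⟨b, hb, rfl⟩
      exact ⟨mem_vld (a := b).1 hb, fun v _ => ⟨_, rfl⟩⟩
    have : Nonempty C := ⟨c0⟩
    choose! χ hχ using h2
    exact ⟨cp S.fc c0 χ a.1.1, mem_vld.2 h1, (rl_cp h0 _ _).trans ((cp_congr hχ).trans (cp_self a))⟩
  rw [← mass_image (S := nar (blow S c0) W) (S' := nar (blow S d0) W) inj (fun a _ b _ => by
      simp only [nar, blow, MS.gram, Matrix.smul_apply, of_apply, rl, hj.comp_left.eq_iff])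
    fun z a _ => congrArg (S.p · a.1.1) (funext fun k => congrArg z (rl_cp h0 _ k).symm)]
  refine Cls.mass_mono (ok_nar (ok_blow h d0) hW) (cen_nar (cen_blow hc d0) W) ((hq.vld d0).nar W)
    (Cls.nar ⟨fun a b e1 e2 ha => ?_, fun a ha b hb => ?_⟩ W) fun a ha => mem_vld.2 (mem.1 ha).1
  · have := fc_blow_sub.1 e1.ge
    exact mem.2 ⟨mem_vld.1 ((hq.vld d0).blk a b e1 e2 (mem_vld.2 (mem.1 ha).1)),
      fun v hv => this.2 v hv ▸ (mem.1 ha).2 v (this.1 hv)⟩
  · have := fc_blow_sub.1 hb.1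
    exact mem.2 ⟨mem_vld.1 ((hq.vld d0).dep a (mem_vld.2 (mem.1 ha).1) b hb),
      fun v hv => this.2 v hv ▸ (mem.1 ha).2 v (this.1 hv)⟩

/-- one blow-up decides smoothness -/
theorem smo_of_mass (h : S.Ok) (hc : S.Cen) {q : Finset ι} (hq : Cls S q) (d0 : D) {N : ℕ}
    (hN : N ≤ Fintype.card D) {W η : ℝ} (hW : W ≠ 0)
    (hm : (nar (blow S d0) W).mass (vld S.fc d0 q) ≤ 1 + η) : Smo S q N W η := by
  intro C _ _ c0 hC
  obtain ⟨j⟩ := Function.Embedding.nonempty_of_card_le (hC.trans hN)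
  exact (mass_rl h hc hq ((Equiv.swap (j c0) d0).injective.comp j.injective)
    (Equiv.swap_apply_left _ _) hW).trans hm

/-- a blow-up of a blow-up -/
def bb (S : MS V ι) (c0 : C) (d0 : D) (a : BI (blow S c0).fc d0) : BI S.fc (c0, d0) :=
  ⟨(a.1.1.1.1, fun v => (a.1.1.1.2 v, a.1.2 (v, a.1.1.1.2 v))), fun v hv =>
    Prod.ext (a.1.1.2 v hv) (a.2 _ fun h => hv (mem_fc_blow.1 h).1)⟩

theorem smo_blow {q : Finset ι} (c0 : C) {N : ℕ} {W η : ℝ}
    (hS : Smo S q (Fintype.card C * N) W η) : Smo (blow S c0) (vld S.fc c0 q) N W η := by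
  intro D _ _ d0 hD
  have key : ∀ a b : BI (blow S c0).fc d0,
      (bb S c0 d0 a).1.2 = (bb S c0 d0 b).1.2 ↔ a.1.2 = b.1.2 ∧ a.1.1.1.2 = b.1.1.1.2 := by
    intro a b
    refine ⟨fun h => ?_, fun h => funext fun v => by simp only [bb, h.1, h.2]⟩
    have h1 : a.1.1.1.2 = b.1.1.1.2 := funext fun v => congrArg Prod.fst (congrFun h v)
    refine ⟨funext fun w => ?_, h1⟩
    by_cases hw : a.1.1.1.2 w.1 = w.2
    · have h2 := congrArg Prod.snd (congrFun h w.1)
      simp only [bb, ← h1, hw] at h2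
      exact h2
    · rw [a.2 w fun h2 => hw (mem_fc_blow.1 h2).2, b.2 w fun h2 => hw (h1 ▸ (mem_fc_blow.1 h2).2)]
  have inj : Function.Injective (bb S c0 d0) := fun a b e => by
    have := (key a b).1 (congrArg (fun x : BI S.fc (c0, d0) => x.1.2) e)
    exact Subtype.ext (Prod.ext (Subtype.ext (Prod.ext
      (congrArg (fun x : BI S.fc (c0, d0) => x.1.1) e) this.2)) this.1)
  have im : vld S.fc (c0, d0) q =
      (vld (blow S c0).fc d0 (vld S.fc c0 q)).image (bb S c0 d0) := by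
    ext a
    rw [mem_vld, mem_image]
    constructor
    · refine fun ha => ⟨⟨(⟨(a.1.1, fun v => (a.1.2 v).1), fun v hv => by simp only [a.2 v hv]⟩,
        fun w => if (a.1.2 w.1).1 = w.2 then (a.1.2 w.1).2 else d0), fun w hw => ?_⟩,
        mem_vld.2 (mem_vld.2 ha), Subtype.ext (Prod.ext rfl (funext fun v => by simp [bb]))⟩
      dsimp only
      split_ifs with h1
      · rw [a.2 w.1 fun h2 => hw (mem_fc_blow.2 ⟨h2, h1⟩)]
      · rfl
    · rintro ⟨b, hb, rfl⟩
      exact mem_vld (a := b.1.1).1 (mem_vld.1 hb)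
  have h1 := hS (C × D) (c0, d0) (by rw [Fintype.card_prod]; exact Nat.mul_le_mul_left _ hD)
  rw [im] at h1
  refine le_of_eq_of_le (@mass_image _ _ _ _ (_) (_) _ _ (nar (blow (blow S c0) d0) W)
    (nar (blow S (c0, d0)) W) _ _ inj (fun a _ b _ => ?_) fun z a _ => ?_).symm h1
  · change W ^ 2 * (if _ then _ else _) = W ^ 2 * if _ then (if _ then _ else _) else _
    simp only [key, ite_and]
    rfl
  · refine congrArg (S.p · a.1.1.1.1) (funext fun k => congrArg z
      (Subtype.ext (Prod.ext rfl (funext fun v => ?_))))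
    by_cases hv : v ∈ S.fc k <;> simp [bb, cp, hv, mem_fc_blow]

theorem nwm : NWM V := by
  intro ι _ _ S b lam Z h hc hZ h1 h2 hS
  have e : (univ : Finset (ι ⊕ (nw ι b lam).X)) = univ.image Sum.inl := by
    ext a
    rcases a with i | x
    exacts [by simp, x.elim]
  unfold Mg xt
  rw [e, smo_top]
  refine Smo.dil h hc (Real.exp_pos _) h1 (hS.mono h hc (cls_univ S) (cls_univ S) Subset.rfl
    (Nat.ceil_mono (by linarith)) (by have := Real.exp_pos Z; positivity) ?_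
    (Real.exp_le_exp.2 (by linarith)))
  rw [card_singleton, pow_one, two_mul, Real.exp_add]
  exact mul_le_mul_of_nonneg_left h2 (Real.exp_pos _).le

theorem jsm : JSM V := by
  intro ι _ _ S b lam Z h hc hZ h1 h2 hS
  have e : (univ : Finset (BI S.fc (0 : Fin 4))) = vld S.fc 0 univ := by ext a; simp [mem_vld]
  have h3 : 1 ≤ √lam := Real.one_le_sqrt.2 h1
  have h4 : ∀ c : Fin 4, 1 ≤ ![1, 1, √lam, √lam] c ∧ ![1, 1, √lam, √lam] c ≤ √lam := fun c => by
    fin_cases c <;> simp [h1]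
  have hs := P057PI.sc_sg (S := S) (c0 := (0 : Fin 4)) univ b fun c => (h4 c).1
  refine smo_gsc (ok_blow h 0) (cen_blow hc 0) hs.fc (fun i => one_pos.trans_le (hs.one i))
    (Real.exp_pos _) (W' := √lam) (by linarith) (fun i => ?_) ?_
  · unfold P057PI.sg
    split_ifs
    exacts [(h4 _).2, h3]
  rw [e]
  refine smo_blow 0 (hS.mono h hc (cls_univ S) (cls_univ S) Subset.rfl ?_
    (by have := Real.exp_pos Z; positivity) ?_ (Real.exp_le_exp.2 (by linarith)))
  · have := Nat.ceil_lt_add_one (show 0 ≤ Z by linarith)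
    have h5 := Nat.le_ceil (6 * Z)
    rw [Fintype.card_fin]
    exact_mod_cast (show (4 : ℝ) * ⌈Z⌉₊ ≤ ⌈6 * Z⌉₊ by linarith)
  · calc _ ≤ Real.exp Z * Real.exp Z := mul_le_mul_of_nonneg_left
          ((Real.sqrt_le_self_iff.2 (Or.inr h1)).trans h2) (Real.exp_pos _).le
      _ ≤ _ := by rw [← Real.exp_add]; exact Real.exp_le_exp.2 (by linarith)

end

end Vale.Agent.P057PK
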